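import Vale.Agent.P113.H2.Part8
import Vale.Agent.P113.H2.Part3a
import Vale.Agent.P113.H122.Part4
import Vale.Agent.P113.H195.Final3b
import Vale.Agent.P113.H195.Part2c
import Vale.Agent.P113.H437.Part5
import Vale.Agent.P113.H44.Part6
import Vale.Agent.P113.H72.Part2b
import Vale.Agent.P113.H965.Part7
import Vale.Agent.P113.H99.Part2a

/-! # P113: all parts together -/

namespace Vale.Agent.P113

theorem statement_proved : Statement :=
  statement_of_parts H72.part2b (H2.part3a H99.part2a H195.part2cR) H195.part3b H122.part4 part5
    (H44.part6 H99.part2a) H965.part7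

end Vale.Agent.P113
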