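import Mathlib

/-!
# P113: definitions for the statement

Everything below follows the problem text of P113 literally.  Functions on the flat torus
`T³ = (ℝ/ℤ)³` are functions on `ℝ³ = Fin 3 → ℝ` which are `1`-periodic in each coordinate.
-/

open MeasureTheory Set
open scoped ContDiff

namespace Vale.Agent.P113

/-! ## Turing machines -/

/-- The moves of the head. -/
inductive Move
  | left
  | stay
  | right
  deriving DecidableEq

/-- The displacement of the head. -/
def Move.shift : Move → ℤ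
  | .left => -1
  | .stay => 0
  | .right => 1

/-- An instruction: in state `q` and reading the symbol `a`, go to state `q'`, write `b`,
move the head by `d`.  States and symbols are natural numbers; the blank is the symbol `0`. -/
structure Rule where
  q : ℕ
  a : ℕ
  q' : ℕ
  b : ℕ
  d : Move

/-- A deterministic one-tape Turing machine, given by its start state, the finite list of its
halting states and its finite table of instructions (the first instruction that applies is the
one that is executed).  Its states and its alphabet are the finitely many states and symbols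
occurring in it. -/
structure Machine where
  start : ℕ
  halting : List ℕ
  rules : List Rule

/-- A configuration: state, head position, content of the two-sided tape. -/
structure Config where
  state : ℕ
  head : ℤ
  tape : ℤ → ℕ

/-- One step of the machine (a configuration to which no instruction applies is left unchanged). -/
def Machine.step (M : Machine) (c : Config) : Config :=
  match M.rules.find? (fun r => decide (r.q = c.state ∧ r.a = c.tape c.head)) with
  | some r => ⟨r.q', c.head + r.d.shift, Function.update c.tape c.head r.b⟩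
  | none => c

/-- The initial configuration: the word `w` on an otherwise blank tape, the head (at position `0`)
on its first cell. -/
def Machine.init (M : Machine) (w : List ℕ) : Config :=
  ⟨M.start, 0, fun i => if 0 ≤ i then w.getD i.toNat 0 else 0⟩

/-- `M` halts on `w`: it reaches a halting state after finitely many steps (possibly none). -/
def Machine.HaltsOn (M : Machine) (w : List ℕ) : Prop :=
  ∃ n : ℕ, (M.step^[n] (M.init w)).state ∈ M.halting

/-! ## Admissible functions -/

/-- `ρ(s) = e^{-1/(1-s²)}` for `|s| < 1`, and `ρ(s) = 0` otherwise. -/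
noncomputable def rho (s : ℝ) : ℝ := if |s| < 1 then Real.exp (-1 / (1 - s ^ 2)) else 0

/-- `κ = ∫_ℝ ρ`. -/
noncomputable def kappa : ℝ := ∫ s, rho s

/-- `σ(s) = ∫_{-∞}^s ρ`. -/
noncomputable def sigma (s : ℝ) : ℝ := ∫ r in Set.Iic s, rho r

/-- `π_ℓ(s) = σ(s) - σ(s - ℓ)`. -/
noncomputable def piFun (l s : ℝ) : ℝ := sigma s - sigma (s - l)

/-- The `1`-periodization `P[g](y) = ∑_{m ∈ ℤ} g(y + m)`. -/
noncomputable def periodize (g : ℝ → ℝ) (y : ℝ) : ℝ := ∑' m : ℤ, g (y + m)

/-- A rational number given by integers: `num / (den + 1)`. -/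
structure RatCode where
  num : ℤ
  den : ℕ

/-- The rational number represented by a code. -/
def RatCode.val (r : RatCode) : ℚ := r.num / (r.den + 1)

/-- Codes of bumps: `k`, the shape `ρ^{(j)}` (`inl j`) or `π_ℓ` (`inr ℓ`), and `a`, `b`. -/
structure BumpCode where
  k : ℕ
  shape : ℕ ⊕ RatCode
  a : RatCode
  b : RatCode

/-- The requirements `a ≠ 0` and `ℓ > 0`. -/
def BumpCode.Valid (g : BumpCode) : Prop :=
  g.a.val ≠ 0 ∧ ∀ l, g.shape = Sum.inr l → 0 < l.val

/-- The bump `s ↦ s^k ρ^{(j)}(a s - b)`, respectively `s ↦ s^k π_ℓ(a s - b)`. -/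
noncomputable def BumpCode.eval (g : BumpCode) (s : ℝ) : ℝ :=
  match g.shape with
  | Sum.inl j => s ^ g.k * iteratedDeriv j rho (g.a.val * s - g.b.val)
  | Sum.inr l => s ^ g.k * piFun l.val (g.a.val * s - g.b.val)

/-- A term `c θ(t) h₁(x₁) h₂(x₂) h₃(x₃)` with `c = q ν^m κ^n ∏ ln rᵢ`.  `time` lists the factors of
`θ`: `(false, g)` stands for the factor `g(t)` and `(true, g)` for the factor `P[g](t)`; `h₁`, `h₂`,
`h₃` list the bumps whose periodizations are multiplied (the empty product is `1`). -/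
structure Term where
  q : RatCode
  m : ℕ
  n : ℤ
  logs : List RatCode
  time : List (Bool × BumpCode)
  h₁ : List BumpCode
  h₂ : List BumpCode
  h₃ : List BumpCode

/-- The requirements on the parameters of a term: `rᵢ > 0`, and all bumps are valid. -/
def Term.Valid (τ : Term) : Prop :=
  (∀ r ∈ τ.logs, 0 < r.val) ∧ (∀ g ∈ τ.time, g.2.Valid) ∧
    (∀ g ∈ τ.h₁, g.Valid) ∧ (∀ g ∈ τ.h₂, g.Valid) ∧ (∀ g ∈ τ.h₃, g.Valid)

/-- A time factor: `g(t)` or `P[g](t)`. -/
noncomputable def timeFactor (g : Bool × BumpCode) (t : ℝ) : ℝ :=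
  if g.1 then periodize g.2.eval t else g.2.eval t

/-- A product of periodizations of bumps. -/
noncomputable def spaceFactor (h : List BumpCode) (y : ℝ) : ℝ :=
  (h.map fun g => periodize g.eval y).prod

/-- The value of a term. -/
noncomputable def Term.eval (ν : ℝ) (τ : Term) (t : ℝ) (x : Fin 3 → ℝ) : ℝ :=
  (τ.q.val * ν ^ τ.m * kappa ^ τ.n * (τ.logs.map fun r => Real.log r.val).prod) *
    (τ.time.map fun g => timeFactor g t).prod *
    (spaceFactor τ.h₁ (x 0) * spaceFactor τ.h₂ (x 1) * spaceFactor τ.h₃ (x 2))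

/-- A term is periodic if `θ` is `1` or a product of periodizations only. -/
def Term.isPeriodic (τ : Term) : Bool := τ.time.all fun g => g.1

/-! ### Codes of finite objects (for the notion of algorithm)

Each of the finite objects above is coded by the tuple of its fields; this gives the `Primcodable`
instances that `Computable` refers to. -/

/-- `left`, `stay`, `right` are coded by `0`, `1`, `2`. -/
def Move.toFin : Move → Fin 3
  | .left => 0
  | .stay => 1
  | .right => 2

/-- Decoding of moves. -/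
def Move.ofFin (i : Fin 3) : Move := if i = 0 then .left else if i = 1 then .stay else .right

/-- Equivalence used to encode `Move`. -/
def moveEquiv : Move ≃ Fin 3 :=
  ⟨Move.toFin, Move.ofFin, by rintro (_ | _ | _) <;> rfl, by intro i; fin_cases i <;> rfl⟩

instance : Primcodable Move := Primcodable.ofEquiv _ moveEquiv

/-- The fields of a rule. -/
def Rule.toTuple (r : Rule) : ℕ × ℕ × ℕ × ℕ × Move := (r.q, r.a, r.q', r.b, r.d)

/-- The rule with the given fields. -/
def Rule.ofTuple (r : ℕ × ℕ × ℕ × ℕ × Move) : Rule := ⟨r.1, r.2.1, r.2.2.1, r.2.2.2.1, r.2.2.2.2⟩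

/-- Equivalence used to encode `Rule`. -/
def ruleEquiv : Rule ≃ ℕ × ℕ × ℕ × ℕ × Move :=
  ⟨Rule.toTuple, Rule.ofTuple, fun _ => rfl, fun _ => rfl⟩

instance : Primcodable Rule := Primcodable.ofEquiv _ ruleEquiv

/-- The fields of a machine. -/
def Machine.toTuple (M : Machine) : ℕ × List ℕ × List Rule := (M.start, M.halting, M.rules)

/-- The machine with the given fields. -/
def Machine.ofTuple (M : ℕ × List ℕ × List Rule) : Machine := ⟨M.1, M.2.1, M.2.2⟩

/-- Equivalence used to encode `Machine`. -/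
def machineEquiv : Machine ≃ ℕ × List ℕ × List Rule :=
  ⟨Machine.toTuple, Machine.ofTuple, fun _ => rfl, fun _ => rfl⟩

instance : Primcodable Machine := Primcodable.ofEquiv _ machineEquiv

/-- The fields of a rational code. -/
def RatCode.toTuple (r : RatCode) : ℤ × ℕ := (r.num, r.den)

/-- The rational code with the given fields. -/
def RatCode.ofTuple (r : ℤ × ℕ) : RatCode := ⟨r.1, r.2⟩

/-- Equivalence used to encode `RatCode`. -/
def ratEquiv : RatCode ≃ ℤ × ℕ :=
  ⟨RatCode.toTuple, RatCode.ofTuple, fun _ => rfl, fun _ => rfl⟩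

instance : Primcodable RatCode := Primcodable.ofEquiv _ ratEquiv

/-- The fields of a bump code. -/
def BumpCode.toTuple (g : BumpCode) : ℕ × (ℕ ⊕ RatCode) × RatCode × RatCode :=
  (g.k, g.shape, g.a, g.b)

/-- The bump code with the given fields. -/
def BumpCode.ofTuple (g : ℕ × (ℕ ⊕ RatCode) × RatCode × RatCode) : BumpCode :=
  ⟨g.1, g.2.1, g.2.2.1, g.2.2.2⟩

/-- Equivalence used to encode `BumpCode`. -/
def bumpEquiv : BumpCode ≃ ℕ × (ℕ ⊕ RatCode) × RatCode × RatCode :=
  ⟨BumpCode.toTuple, BumpCode.ofTuple, fun _ => rfl, fun _ => rfl⟩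

instance : Primcodable BumpCode := Primcodable.ofEquiv _ bumpEquiv

/-- The fields of a term. -/
def Term.toTuple (τ : Term) : RatCode × ℕ × ℤ × List RatCode × List (Bool × BumpCode) ×
    List BumpCode × List BumpCode × List BumpCode :=
  (τ.q, τ.m, τ.n, τ.logs, τ.time, τ.h₁, τ.h₂, τ.h₃)

/-- The term with the given fields. -/
def Term.ofTuple (τ : RatCode × ℕ × ℤ × List RatCode × List (Bool × BumpCode) ×
    List BumpCode × List BumpCode × List BumpCode) : Term :=
  ⟨τ.1, τ.2.1, τ.2.2.1, τ.2.2.2.1, τ.2.2.2.2.1, τ.2.2.2.2.2.1, τ.2.2.2.2.2.2.1,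
    τ.2.2.2.2.2.2.2⟩

/-- Equivalence used to encode `Term`. -/
def termEquiv : Term ≃ RatCode × ℕ × ℤ × List RatCode × List (Bool × BumpCode) ×
    List BumpCode × List BumpCode × List BumpCode :=
  ⟨Term.toTuple, Term.ofTuple, fun _ => rfl, fun _ => rfl⟩

instance : Primcodable Term := Primcodable.ofEquiv _ termEquiv

/-! ## Force compilers -/

/-- The function represented by a finite list of terms. -/
noncomputable def evalList (ν : ℝ) (L : List Term) (t : ℝ) (x : Fin 3 → ℝ) : ℝ :=
  (L.map fun τ => τ.eval ν t x).sum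

/-- A force compiler: three computable functions (one for each component of the force) sending
`(M, w)` to a finite list of (valid) terms, such that every listed non-periodic term vanishes for
`t ≥ T₀`, and the list of the periodic terms depends on `M` only. -/
structure IsForceCompiler (F : Fin 3 → Machine × List ℕ → List Term) (T₀ : ℝ) : Prop where
  computable : ∀ i, Computable (F i)
  valid : ∀ i M w, ∀ τ ∈ F i (M, w), τ.Valid
  transient : ∀ i M w, ∀ τ ∈ F i (M, w), τ.isPeriodic = false →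
    ∀ ν t x, T₀ ≤ t → τ.eval ν t x = 0
  periodic : ∀ i M w w',
    (F i (M, w)).filter (fun τ => τ.isPeriodic) = (F i (M, w')).filter (fun τ => τ.isPeriodic)

/-- The force produced by the compiler `F` from `(M, w)`. -/
noncomputable def force (ν : ℝ) (F : Fin 3 → Machine × List ℕ → List Term) (M : Machine)
    (w : List ℕ) (t : ℝ) (x : Fin 3 → ℝ) : Fin 3 → ℝ :=
  fun i => evalList ν (F i (M, w)) t x

/-! ## The Navier-Stokes equations on `T³` -/

/-- Partial derivative in the space variable `i`. -/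
noncomputable def dx (i : Fin 3) (g : ℝ → (Fin 3 → ℝ) → ℝ) (t : ℝ) (x : Fin 3 → ℝ) : ℝ :=
  deriv (fun s => g t (Function.update x i s)) (x i)

/-- Partial derivative in time, on the time interval `I` (one-sided at its end points). -/
noncomputable def dt (I : Set ℝ) (g : ℝ → (Fin 3 → ℝ) → ℝ) (t : ℝ) (x : Fin 3 → ℝ) : ℝ :=
  derivWithin (fun s => g s x) I t

/-- `g(t, ·)` is `1`-periodic in each variable for every `t ∈ I`, i.e. a function on `T³`. -/
def IsPeriodicOn (I : Set ℝ) (g : ℝ → (Fin 3 → ℝ) → ℝ) : Prop :=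
  ∀ t ∈ I, ∀ x : Fin 3 → ℝ, ∀ k : Fin 3 → ℤ, g t (fun i => x i + k i) = g t x

/-- `g` is continuous on `I × T³`. -/
def ContOn (I : Set ℝ) (g : ℝ → (Fin 3 → ℝ) → ℝ) : Prop :=
  ContinuousOn (fun z : ℝ × (Fin 3 → ℝ) => g z.1 z.2) (I ×ˢ univ)

/-- The partial derivative of `g` in the space variable `i` exists everywhere on `I × T³`. -/
def HasDx (I : Set ℝ) (i : Fin 3) (g : ℝ → (Fin 3 → ℝ) → ℝ) : Prop :=
  ∀ t ∈ I, ∀ x : Fin 3 → ℝ, DifferentiableAt ℝ (fun s => g t (Function.update x i s)) (x i)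

/-- The time derivative of `g` exists everywhere on `I × T³`. -/
def HasDt (I : Set ℝ) (g : ℝ → (Fin 3 → ℝ) → ℝ) : Prop :=
  ∀ t ∈ I, ∀ x : Fin 3 → ℝ, DifferentiableWithinAt ℝ (fun s => g s x) I t

/-- `(u, p)` is a classical solution, on the time interval `I ∋ 0`, of
`∂ₜu + (u·∇)u = -∇p + νΔu + f`, `div u = 0`, `u(0,·) = 0` on `T³`: the equations hold pointwise,
`u`, `∂ₜu`, the spatial derivatives of `u` up to order two, `p` and `∇p` exist and are continuous
on `I × T³`, and `p` has spatial mean zero. -/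
structure IsClassicalSolution (ν : ℝ) (f : ℝ → (Fin 3 → ℝ) → (Fin 3 → ℝ)) (I : Set ℝ)
    (u : ℝ → (Fin 3 → ℝ) → (Fin 3 → ℝ)) (p : ℝ → (Fin 3 → ℝ) → ℝ) : Prop where
  periodic_u : ∀ i, IsPeriodicOn I (fun t x => u t x i)
  periodic_p : IsPeriodicOn I p
  hasDt : ∀ i, HasDt I (fun t x => u t x i)
  hasDx : ∀ i j, HasDx I j (fun t x => u t x i)
  hasDxx : ∀ i j k, HasDx I k (dx j (fun t x => u t x i))
  hasDx_p : ∀ j, HasDx I j p
  cont_u : ∀ i, ContOn I (fun t x => u t x i)
  cont_dt : ∀ i, ContOn I (dt I (fun t x => u t x i))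
  cont_dx : ∀ i j, ContOn I (dx j (fun t x => u t x i))
  cont_dxx : ∀ i j k, ContOn I (dx k (dx j (fun t x => u t x i)))
  cont_p : ContOn I p
  cont_dx_p : ∀ j, ContOn I (dx j p)
  momentum : ∀ t ∈ I, ∀ x, ∀ i,
    dt I (fun t x => u t x i) t x + ∑ j, u t x j * dx j (fun t x => u t x i) t x
      = - dx i p t x + ν * ∑ j, dx j (dx j (fun t x => u t x i)) t x + f t x i
  incompressible : ∀ t ∈ I, ∀ x, ∑ i, dx i (fun t x => u t x i) t x = 0
  initial : ∀ x, u 0 x = 0
  mean_p : ∀ t ∈ I, ∫ x in Icc (0 : Fin 3 → ℝ) 1, p t x = 0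

/-- `(u, p)` is smooth on `[0, ∞) × T³`. -/
def IsSmooth (u : ℝ → (Fin 3 → ℝ) → (Fin 3 → ℝ)) (p : ℝ → (Fin 3 → ℝ) → ℝ) : Prop :=
  ContDiffOn ℝ ∞ (fun z : ℝ × (Fin 3 → ℝ) => u z.1 z.2) (Ici 0 ×ˢ univ) ∧
    ContDiffOn ℝ ∞ (fun z : ℝ × (Fin 3 → ℝ) => p z.1 z.2) (Ici 0 ×ˢ univ)

/-- `X : [0, ∞) → ℝ³` (a lift of a path in `T³`) is the trajectory of the point `a`. -/
def IsTrajectory (u : ℝ → (Fin 3 → ℝ) → (Fin 3 → ℝ)) (a : Fin 3 → ℝ) (X : ℝ → (Fin 3 → ℝ)) :
    Prop :=
  X 0 = a ∧ ∀ t, 0 ≤ t → HasDerivWithinAt X (u t (X t)) (Ici 0) t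

/-- The projection `ℝ³ → T³ = (ℝ/ℤ)³`. -/
noncomputable def toTorus (x : Fin 3 → ℝ) : Fin 3 → UnitAddCircle := fun i => (x i : UnitAddCircle)

/-- The open subset of `T³` that is the image of the open box with corners `lo`, `hi`. -/
noncomputable def boxImage (lo hi : Fin 3 → ℚ) : Set (Fin 3 → UnitAddCircle) :=
  toTorus '' {x : Fin 3 → ℝ | ∀ i, (lo i : ℝ) < x i ∧ x i < (hi i : ℝ)}

/-- The full statement. -/
def Statement : Prop :=
  ∃ (a lo hi : Fin 3 → ℚ) (F : Fin 3 → Machine × List ℕ → List Term) (T₀ : ℝ),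
    (∀ i, lo i < hi i) ∧ IsForceCompiler F T₀ ∧
    ∀ ν : ℝ, 0 < ν → ∀ (M : Machine) (w : List ℕ),
      ∃ (u : ℝ → (Fin 3 → ℝ) → (Fin 3 → ℝ)) (p : ℝ → (Fin 3 → ℝ) → ℝ) (X : ℝ → (Fin 3 → ℝ)),
        IsSmooth u p ∧
        IsClassicalSolution ν (force ν F M w) (Ici 0) u p ∧
        (∀ T, 0 < T → ∀ v q, IsClassicalSolution ν (force ν F M w) (Icc 0 T) v q →
          ∀ t ∈ Icc 0 T, ∀ x, v t x = u t x ∧ q t x = p t x) ∧
        IsTrajectory u (fun i => (a i : ℝ)) X ∧
        (∀ Y, IsTrajectory u (fun i => (a i : ℝ)) Y → ∀ t, 0 ≤ t → Y t = X t) ∧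
        ((∃ t, 0 ≤ t ∧ toTorus (X t) ∈ boxImage lo hi) ↔ M.HaltsOn w)

end Vale.Agent.P113
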