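import Vale.Agent.P113.Defs

/-!
# P113: interface between the parts (not part of the statement)

* part 5 produces a `TSM` (two-stack machine) for an r.e. predicate,
* part 6 realises a `TSM` by nine shears,
* part 3 treats the flow of a list of shears,
* part 2 the one-variable calculus and the closure properties of lists of admissible terms.
-/

open MeasureTheory Set
open scoped ContDiff

namespace Vale.Agent.P113

/-! ## Two-stack machines -/

/-- The kind of step announced by a record symbol. -/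
inductive Kind
  | push
  | turn
  | write (e b : ℕ)

/-- An (automatically injective) two-stack machine; symbols are `0, …, n-1`, the blank is `0`,
stacks are lists with `headI = 0` for the empty list.  `δ (top X) (top Y)` is the record symbol
that is pushed, `none` means that the machine halts.  The record symbol determines the kind of the
step. -/
structure TSM where
  n : ℕ
  δ : ℕ → ℕ → Option ℕ
  kind : ℕ → Kind
  n_pos : 0 < n
  δ_lt : ∀ e y j, δ e y = some j → j < n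
  write_lt : ∀ j e b, kind j = Kind.write e b → b < n
  write_eq : ∀ e y j e' b, δ e y = some j → kind j = Kind.write e' b → e' = e

/-- One step of a two-stack machine on the configuration `(X, Y)`. -/
def TSM.step (T : TSM) (c : List ℕ × List ℕ) : Option (List ℕ × List ℕ) :=
  match T.δ c.1.headI c.2.headI with
  | none => none
  | some j =>
    match T.kind j with
    | Kind.push => some (c.1.tail, j :: c.1.headI :: c.2)
    | Kind.turn => some (c.2, j :: c.1)
    | Kind.write _ b => some (b :: c.1.tail, j :: c.2)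

/-- Target of part 5. -/
def Part5 : Prop :=
  ∀ p : ℕ → Prop, REPred p →
    ∃ (T : TSM) (c₀ c₁ y₀ : ℕ), c₀ < T.n ∧ c₁ < T.n ∧ y₀ < T.n ∧
      ∀ k : ℕ, (StateTransition.eval T.step (c₀ :: List.replicate k c₁, [y₀])).Dom ↔ p k

/-! ## Shears -/

/-- Data of a plateau function: `y ↦ s^k` on `[lo, hi]`, supported in `[lo - δ, hi + δ]`,
then `1`-periodized.  (`0 < δ`, `lo ≤ hi`, and the support is short: `hi - lo + 2 δ ≤ 1`.) -/
structure Plateau where
  k : ℕ
  lo : ℚ
  hi : ℚ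
  δ : ℚ

/-- Admissibility of plateau data. -/
def Plateau.Ok (P : Plateau) : Prop := 0 < P.δ ∧ P.lo ≤ P.hi ∧ P.hi - P.lo + 2 * P.δ ≤ 1

/-- The plateau function: `κ⁻¹ P[s^k π_ℓ(a s - b)]` with `a = 2/δ`, `b = 2 lo/δ - 1`,
`ℓ = 2 (hi - lo)/δ + 2`. -/
noncomputable def Plateau.fn (P : Plateau) (y : ℝ) : ℝ :=
  kappa⁻¹ * periodize (fun s => s ^ P.k *
    piFun ((2 * (P.hi - P.lo) / P.δ + 2 : ℚ) : ℝ)
      (((2 / P.δ : ℚ) : ℝ) * s - ((2 * P.lo / P.δ - 1 : ℚ) : ℝ))) y

/-- `c * h₀(x₀) h₁(x₁) h₂(x₂)`, each `hᵢ` being `1` (`none`) or a plateau function. -/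
structure Atom where
  c : ℚ
  h : Fin 3 → Option Plateau

/-- Value of an optional plateau. -/
noncomputable def optFn (h : Option Plateau) (y : ℝ) : ℝ :=
  match h with
  | none => 1
  | some P => P.fn y

/-- Value of an atom. -/
noncomputable def Atom.eval (A : Atom) (x : Fin 3 → ℝ) : ℝ :=
  A.c * ∏ i, optFn (A.h i) (x i)

/-- A shear `x_l ↦ x_l + g(x)`, `g` a sum of atoms not depending on `x_l`. -/
structure Shear where
  l : Fin 3
  atoms : List Atom

/-- Admissibility of a shear. -/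
def Shear.Ok (S : Shear) : Prop :=
  ∀ A ∈ S.atoms, A.h S.l = none ∧ ∀ i P, A.h i = some P → P.Ok

/-- The function `g` of a shear. -/
noncomputable def Shear.g (S : Shear) (x : Fin 3 → ℝ) : ℝ := (S.atoms.map fun A => A.eval x).sum

/-- The map `x_l ↦ x_l + g(x)`. -/
noncomputable def Shear.map (S : Shear) (x : Fin 3 → ℝ) : Fin 3 → ℝ :=
  Function.update x S.l (x S.l + S.g x)

/-- The orbit of `v` under the cyclic application of the shears of a nonempty list. -/
noncomputable def orbit (S : List Shear) (hS : S ≠ []) (v : Fin 3 → ℝ) : ℕ → (Fin 3 → ℝ)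
  | 0 => v
  | k + 1 => Shear.map (S[k % S.length]'(Nat.mod_lt _ (List.length_pos_iff.2 hS)))
      (orbit S hS v k)

/-! ## Velocity field of a list of shears -/

/-- The transient time profile `4 κ⁻¹ ρ(4 t - 1)`, supported in `[0, 1/2]`, of integral one. -/
noncomputable def theta0 (t : ℝ) : ℝ := 4 * kappa⁻¹ * rho (4 * t - 1)

/-- The periodic time profile of the `j`-th of `N` windows: `4 N κ⁻¹ P[ρ(4 N s - (2 N + 2 j + 1))]`,
supported (mod 1) in `[1/2 + j/(2N), 1/2 + (j+1)/(2N)]`, of integral one. -/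
noncomputable def theta (N j : ℕ) (t : ℝ) : ℝ :=
  4 * N * kappa⁻¹ * periodize (fun s => rho (4 * N * s - (2 * N + 2 * j + 1))) t

/-- The velocity field: transient constant velocity `v`, and the shears of the list `S`. -/
noncomputable def vel (S : List Shear) (v : Fin 3 → ℝ) (t : ℝ) (x : Fin 3 → ℝ) : Fin 3 → ℝ :=
  fun i => theta0 t * v i +
    ∑ j : Fin S.length, if (S.get j).l = i then theta S.length j t * (S.get j).g x else 0

/-- The periodic part of the force needed for `vel S v`, component `i`. -/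
noncomputable def perForce (S : List Shear) (ν : ℝ) (i : Fin 3) (t : ℝ) (x : Fin 3 → ℝ) : ℝ :=
  ∑ j : Fin S.length, if (S.get j).l = i then
    deriv (theta S.length j) t * (S.get j).g x
      - ν * (theta S.length j t *
        ∑ k, dx k (dx k (fun _ x => (S.get j).g x)) t x) else 0

/-! ## Targets of the parts -/

/-- Target of part 2a: plateau functions. -/
def Part2a : Prop :=
  0 < kappa ∧
  ∀ P : Plateau, P.Ok → ContDiff ℝ ∞ P.fn ∧ (∀ y, P.fn (y + 1) = P.fn y) ∧
    (∀ y : ℝ, (P.lo : ℝ) ≤ y → y ≤ P.hi → P.fn y = y ^ P.k) ∧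
    (∀ y : ℝ, (P.hi : ℝ) + P.δ ≤ y → y ≤ 1 + P.lo - P.δ → P.fn y = 0) ∧
    (∀ y : ℝ, (P.hi : ℝ) + P.δ - 1 ≤ y → y ≤ P.lo - P.δ → P.fn y = 0)

/-- Target of part 2b: the periodic force is given by a finite list of valid periodic terms. -/
def Part2b : Prop :=
  ∀ S : List Shear, (∀ s ∈ S, s.Ok) → ∀ i, ∃ L : List Term,
    (∀ τ ∈ L, τ.Valid ∧ τ.isPeriodic = true) ∧ ∀ ν t x, evalList ν L t x = perForce S ν i t x

/-- Target of part 2c: time profiles (smoothness, supports, integrals). -/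
def Part2c : Prop :=
  ContDiff ℝ ∞ theta0 ∧ (∀ t, 0 ≤ theta0 t) ∧ (∀ t, t ≤ 0 → theta0 t = 0) ∧
    (∀ t, 1 / 2 ≤ t → theta0 t = 0) ∧ (∫ t in (0 : ℝ)..(1 / 2), theta0 t = 1) ∧
  ∀ N j : ℕ, j < N → ContDiff ℝ ∞ (theta N j) ∧ (∀ t, 0 ≤ theta N j t) ∧
    (∀ t, theta N j (t + 1) = theta N j t) ∧
    (∀ t, 0 ≤ t → t ≤ 1 / 2 + j / (2 * N) → theta N j t = 0) ∧
    (∀ t, 1 / 2 + (j + 1) / (2 * N) ≤ t → t ≤ 1 → theta N j t = 0) ∧
    (∫ t in (1 / 2 + j / (2 * N) : ℝ)..(1 / 2 + (j + 1) / (2 * N)), theta N j t = 1)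

/-- Target of part 3 (may use part 2a, 2c): `vel S v` solves Navier-Stokes with `p = 0`. -/
def Part3a : Prop :=
  ∀ S : List Shear, S ≠ [] → (∀ s ∈ S, s.Ok) → ∀ v : Fin 3 → ℝ, ∀ ν : ℝ,
    ∀ f : ℝ → (Fin 3 → ℝ) → (Fin 3 → ℝ),
      (∀ t, 0 ≤ t → ∀ x i, f t x i = deriv theta0 t * v i + perForce S ν i t x) →
      ContDiff ℝ ∞ (fun z : ℝ × (Fin 3 → ℝ) => vel S v z.1 z.2) ∧
      IsClassicalSolution ν f (Ici 0) (vel S v) (fun _ _ => 0)

/-- Target of part 3: the trajectory of `0` follows the segments of the orbit of `v`. -/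
def Part3b : Prop :=
  ∀ (S : List Shear) (hS : S ≠ []), (∀ s ∈ S, s.Ok) → ∀ v : Fin 3 → ℝ,
    ∃ X : ℝ → (Fin 3 → ℝ), IsTrajectory (vel S v) 0 X ∧
      (∀ Y, IsTrajectory (vel S v) 0 Y → ∀ t, 0 ≤ t → Y t = X t) ∧
      (∀ k, ∃ t, 0 ≤ t ∧ X t = orbit S hS v k) ∧
      (∀ t, 0 ≤ t → ∃ s : ℝ, 0 ≤ s ∧ s ≤ 1 ∧
        (X t = s • v ∨ ∃ k, X t = (1 - s) • orbit S hS v k + s • orbit S hS v (k + 1)))

/-- Target of part 4: uniqueness of classical solutions, for a smooth solution `u`. -/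
def Part4 : Prop :=
  ∀ (ν T : ℝ) (f : ℝ → (Fin 3 → ℝ) → (Fin 3 → ℝ)), 0 < ν → 0 < T →
    ∀ u p v q, IsClassicalSolution ν f (Icc 0 T) u p → IsClassicalSolution ν f (Icc 0 T) v q →
      ∀ t ∈ Icc 0 T, ∀ x, v t x = u t x ∧ q t x = p t x

/-- The encoding of stacks: base `2 n`, digits `2 e`. -/
noncomputable def enc (n : ℕ) : List ℕ → ℝ
  | [] => 0
  | e :: l => (2 * e + enc n l) / (2 * n)

/-- The point of `ℝ³` encoding the configuration `(X, Y)`. -/
noncomputable def pos (n : ℕ) (c : List ℕ × List ℕ) : Fin 3 → ℝ :=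
  ![enc n c.1 / 4, enc n c.2 / 4, 0]

/-- Target of part 6 (may use part 2a). -/
def Part6 : Prop :=
  ∀ T : TSM, ∃ (S : List Shear) (hS : S ≠ []), (∀ s ∈ S, s.Ok) ∧
    ∀ X Y : List ℕ, (∀ e ∈ X, e < T.n) → (∀ e ∈ Y, e < T.n) →
      ((StateTransition.eval T.step (X, Y)).Dom →
        ∃ k, (orbit S hS (pos T.n (X, Y)) k) 2 = 1 / 2 ∧
          ∀ i, i ≠ 2 → (orbit S hS (pos T.n (X, Y)) k) i ∈ Icc (0 : ℝ) (1 / 4)) ∧
      (¬ (StateTransition.eval T.step (X, Y)).Dom →
        ∀ k i, (orbit S hS (pos T.n (X, Y)) k) i ∈ Icc (0 : ℝ) (1 / 4))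

/-- The transient term with coefficient `q`: `q κ⁻¹ ρ'(4 t - 1)`. -/
def transTerm (q : RatCode) : Term where
  q := q
  m := 0
  n := -1
  logs := []
  time := [(false, ⟨0, Sum.inl 1, ⟨4, 0⟩, ⟨1, 0⟩⟩)]
  h₁ := []
  h₂ := []
  h₃ := []

/-- Target of part 7: halting is r.e., and the compiler output is computable. -/
def Part7 : Prop :=
  REPred (fun k : ℕ => ∃ M w, Encodable.encode ((M, w) : Machine × List ℕ) = k ∧ M.HaltsOn w) ∧
  ∀ (L : List Term) (num den : ℕ → ℕ), Computable num → Computable den →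
    Computable (fun p : Machine × List ℕ =>
      L ++ [transTerm ⟨(num (Encodable.encode p) : ℤ), den (Encodable.encode p)⟩])

end Vale.Agent.P113
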